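import Mathlib

set_option autoImplicit false

/-!
# P181, line DU, (U3)(a): the form `B`

`B(p, q) = ∑_v c_v conj(p_v) q_v`, `c_v = ∏_j (∏_i v_ij!) (s - n_j)!`. The operators
`Fo_i x^v = ∑_j (s - n_j)^+ x_ij x^v` and `D0_i` (the part of `∑_j ∂_ij` from the columns with
`n_j ≤ s`) are adjoint, so `range ∩ ⋂ ker D0_i = 0`.
-/

open MvPolynomial Finset

namespace Vale.Agent.P181.DU.H336

variable {m b : ℕ}

/-- The factor of column `j`. -/
def cf (s : ℕ) (v : Fin m × Fin b →₀ ℕ) (j : Fin b) : ℕ :=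
  (∏ i, (v (i, j)).factorial) * (s - ∑ i, v (i, j)).factorial

/-- The weights of the form. -/
def cw (s : ℕ) (v : Fin m × Fin b →₀ ℕ) : ℕ := ∏ j, cf s v j

theorem cf_pos (s : ℕ) (v : Fin m × Fin b →₀ ℕ) (j : Fin b) : 0 < cf s v j :=
  Nat.mul_pos (Finset.prod_pos fun _ _ => Nat.factorial_pos _) (Nat.factorial_pos _)

theorem cw_pos (s : ℕ) (v : Fin m × Fin b →₀ ℕ) : 0 < cw s v :=
  Finset.prod_pos fun j _ => cf_pos s v j

theorem deg_add_single (v : Fin m × Fin b →₀ ℕ) (i : Fin m) (j j' : Fin b) :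
    ∑ i', (v + Finsupp.single (i, j) 1 : Fin m × Fin b →₀ ℕ) (i', j') =
      (∑ i', v (i', j')) + if j' = j then 1 else 0 := by
  classical
  simp only [Finsupp.add_apply, Finset.sum_add_distrib, Finsupp.single_apply, Prod.mk.injEq]
  congr 1
  by_cases h : j' = j
  · subst h
    simp [Finset.sum_ite_eq]
  · have h' : ¬ j = j' := fun e => h e.symm
    simp [h, h']

theorem cf_add_single_ne (s : ℕ) (v : Fin m × Fin b →₀ ℕ) (i : Fin m) {j j' : Fin b}
    (h : j' ≠ j) : cf s (v + Finsupp.single (i, j) 1) j' = cf s v j' := by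
  classical
  unfold cf
  rw [deg_add_single, if_neg h, add_zero]
  congr 1
  refine Finset.prod_congr rfl fun i' _ => ?_
  have : ¬ (i, j) = (i', j') := fun e => h (by simpa using (congrArg Prod.snd e).symm)
  simp [Finsupp.single_apply, this]

theorem cf_add_single_self (s : ℕ) (v : Fin m × Fin b →₀ ℕ) (i : Fin m) (j : Fin b) :
    cf s (v + Finsupp.single (i, j) 1) j * (s - ∑ i', v (i', j)) =
      if ∑ i', v (i', j) < s then cf s v j * (v (i, j) + 1) else 0 := by
  classical
  unfold cf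
  rw [deg_add_single, if_pos rfl]
  have hp : ∏ i', ((v + Finsupp.single (i, j) 1 : Fin m × Fin b →₀ ℕ) (i', j)).factorial =
      (v (i, j) + 1) * ∏ i', (v (i', j)).factorial := by
    rw [← Finset.mul_prod_erase Finset.univ _ (Finset.mem_univ i),
      ← Finset.mul_prod_erase Finset.univ (fun i' => (v (i', j)).factorial) (Finset.mem_univ i),
      ← mul_assoc]
    congr 1
    · simp [Nat.factorial_succ]
    · refine Finset.prod_congr rfl fun i' hi' => ?_
      have : ¬ i = i' := fun e => (Finset.ne_of_mem_erase hi') e.symm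
      simp [Finsupp.single_apply, this]
  rw [hp]
  split_ifs with h
  · obtain ⟨t, ht⟩ : ∃ t, s - ∑ i', v (i', j) = t + 1 := ⟨s - ∑ i', v (i', j) - 1, by omega⟩
    have h2 : s - (∑ i', v (i', j) + 1) = t := by omega
    rw [h2, ht, Nat.factorial_succ]
    ring
  · have h2 : s - ∑ i', v (i', j) = 0 := by omega
    rw [h2, mul_zero]

theorem cw_add_single (s : ℕ) (v : Fin m × Fin b →₀ ℕ) (i : Fin m) (j : Fin b) :
    cw s (v + Finsupp.single (i, j) 1) * (s - ∑ i', v (i', j)) =
      if ∑ i', v (i', j) < s then cw s v * (v (i, j) + 1) else 0 := by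
  classical
  unfold cw
  have h1 : ∏ j' ∈ Finset.univ.erase j, cf s (v + Finsupp.single (i, j) 1) j' =
      ∏ j' ∈ Finset.univ.erase j, cf s v j' :=
    Finset.prod_congr rfl fun j' hj' => cf_add_single_ne s v i (Finset.ne_of_mem_erase hj')
  rw [← Finset.mul_prod_erase Finset.univ (fun j' => cf s (v + Finsupp.single (i, j) 1) j')
      (Finset.mem_univ j), h1,
    ← Finset.mul_prod_erase Finset.univ (fun j' => cf s v j') (Finset.mem_univ j)]
  have h2 := cf_add_single_self s v i j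
  split_ifs with h
  · rw [if_pos h] at h2
    calc _ = (cf s (v + Finsupp.single (i, j) 1) j * (s - ∑ i', v (i', j))) *
          ∏ j' ∈ Finset.univ.erase j, cf s v j' := by ring
      _ = _ := by rw [h2]; ring
  · rw [if_neg h] at h2
    calc _ = (cf s (v + Finsupp.single (i, j) 1) j * (s - ∑ i', v (i', j))) *
          ∏ j' ∈ Finset.univ.erase j, cf s v j' := by ring
      _ = _ := by rw [h2]; ring

/-- The form. -/
noncomputable def Bf (s : ℕ) (p q : MvPolynomial (Fin m × Fin b) ℂ) : ℂ :=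
  ∑ v ∈ p.support, (starRingEnd ℂ) (coeff v p) * ((cw s v : ℂ) * coeff v q)

theorem Bf_eq (s : ℕ) (p q : MvPolynomial (Fin m × Fin b) ℂ) :
    Bf s p q = ∑ v ∈ p.support, (starRingEnd ℂ) (coeff v p) * ((cw s v : ℂ) * coeff v q) := rfl

theorem Bf_eq_of_subset (s : ℕ) (p q : MvPolynomial (Fin m × Fin b) ℂ)
    (A : Finset (Fin m × Fin b →₀ ℕ)) (hA : p.support ⊆ A) :
    Bf s p q = ∑ v ∈ A, (starRingEnd ℂ) (coeff v p) * ((cw s v : ℂ) * coeff v q) := by
  rw [Bf_eq]
  refine Finset.sum_subset hA fun v _ hv => ?_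
  rw [MvPolynomial.notMem_support_iff.mp hv]
  simp

theorem Bf_zero_left (s : ℕ) (q : MvPolynomial (Fin m × Fin b) ℂ) : Bf s 0 q = 0 := by
  simp [Bf_eq]

theorem Bf_zero_right (s : ℕ) (p : MvPolynomial (Fin m × Fin b) ℂ) : Bf s p 0 = 0 := by
  simp [Bf_eq]

theorem Bf_add_left (s : ℕ) (p p' q : MvPolynomial (Fin m × Fin b) ℂ) :
    Bf s (p + p') q = Bf s p q + Bf s p' q := by
  classical
  rw [Bf_eq_of_subset s (p + p') q (p.support ∪ p'.support) MvPolynomial.support_add,
    Bf_eq_of_subset s p q _ Finset.subset_union_left,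
    Bf_eq_of_subset s p' q _ Finset.subset_union_right, ← Finset.sum_add_distrib]
  refine Finset.sum_congr rfl fun v _ => ?_
  rw [coeff_add, map_add]
  ring

theorem Bf_add_right (s : ℕ) (p q q' : MvPolynomial (Fin m × Fin b) ℂ) :
    Bf s p (q + q') = Bf s p q + Bf s p q' := by
  rw [Bf_eq, Bf_eq, Bf_eq, ← Finset.sum_add_distrib]
  refine Finset.sum_congr rfl fun v _ => ?_
  rw [coeff_add]
  ring

theorem Bf_sum_left {ι : Type*} (s : ℕ) (A : Finset ι)
    (p : ι → MvPolynomial (Fin m × Fin b) ℂ) (q : MvPolynomial (Fin m × Fin b) ℂ) :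
    Bf s (∑ x ∈ A, p x) q = ∑ x ∈ A, Bf s (p x) q := by
  classical
  induction A using Finset.induction_on with
  | empty => simp [Bf_zero_left]
  | insert x A hx ih => rw [Finset.sum_insert hx, Finset.sum_insert hx, Bf_add_left, ih]

theorem Bf_sum_right {ι : Type*} (s : ℕ) (A : Finset ι)
    (p : MvPolynomial (Fin m × Fin b) ℂ) (q : ι → MvPolynomial (Fin m × Fin b) ℂ) :
    Bf s p (∑ x ∈ A, q x) = ∑ x ∈ A, Bf s p (q x) := by
  classical
  induction A using Finset.induction_on with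
  | empty => simp [Bf_zero_right]
  | insert x A hx ih => rw [Finset.sum_insert hx, Finset.sum_insert hx, Bf_add_right, ih]

theorem Bf_monomial (s : ℕ) (u v : Fin m × Fin b →₀ ℕ) (a c : ℂ) :
    Bf s (monomial u a) (monomial v c) =
      if u = v then (cw s u : ℂ) * ((starRingEnd ℂ) a * c) else 0 := by
  classical
  rw [Bf_eq_of_subset s _ _ {u} MvPolynomial.support_monomial_subset, Finset.sum_singleton,
    coeff_monomial, coeff_monomial, if_pos rfl]
  by_cases h : u = v
  · subst h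
    rw [if_pos rfl, if_pos rfl]
    ring
  · rw [if_neg h, if_neg (fun e => h e.symm)]
    ring

theorem Bf_symm (s : ℕ) (p q : MvPolynomial (Fin m × Fin b) ℂ) :
    (starRingEnd ℂ) (Bf s p q) = Bf s q p := by
  classical
  rw [Bf_eq_of_subset s p q (p.support ∪ q.support) Finset.subset_union_left,
    Bf_eq_of_subset s q p (p.support ∪ q.support) Finset.subset_union_right, map_sum]
  refine Finset.sum_congr rfl fun v _ => ?_
  simp only [map_mul, Complex.conj_conj, Complex.conj_natCast]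
  ring

/-- The norm. -/
theorem Bf_self (s : ℕ) (p : MvPolynomial (Fin m × Fin b) ℂ) :
    Bf s p p = ((∑ v ∈ p.support, (cw s v : ℝ) * Complex.normSq (coeff v p) : ℝ) : ℂ) := by
  rw [Bf_eq, Complex.ofReal_sum]
  refine Finset.sum_congr rfl fun v _ => ?_
  rw [Complex.ofReal_mul, Complex.ofReal_natCast, Complex.normSq_eq_conj_mul_self]
  ring

theorem Bf_self_nonneg (s : ℕ) (p : MvPolynomial (Fin m × Fin b) ℂ) : 0 ≤ (Bf s p p).re := by
  rw [Bf_self, Complex.ofReal_re]
  exact Finset.sum_nonneg fun v _ =>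
    mul_nonneg (Nat.cast_nonneg _) (Complex.normSq_nonneg _)

theorem eq_zero_of_Bf_re (s : ℕ) (p : MvPolynomial (Fin m × Fin b) ℂ) (h : (Bf s p p).re ≤ 0) :
    p = 0 := by
  by_contra hp
  obtain ⟨v, hv⟩ : p.support.Nonempty := by
    rw [Finset.nonempty_iff_ne_empty]
    exact fun e => hp (MvPolynomial.support_eq_empty.mp e)
  rw [Bf_self, Complex.ofReal_re] at h
  have h1 : 0 < ∑ v ∈ p.support, (cw s v : ℝ) * Complex.normSq (coeff v p) := by
    refine Finset.sum_pos (fun w hw => ?_) ⟨v, hv⟩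
    exact mul_pos (by exact_mod_cast cw_pos s w)
      (Complex.normSq_pos.mpr (MvPolynomial.mem_support_iff.mp hw))
  linarith

theorem eq_zero_of_Bf (s : ℕ) (p : MvPolynomial (Fin m × Fin b) ℂ) (h : Bf s p p = 0) :
    p = 0 := eq_zero_of_Bf_re s p (by rw [h]; simp)

/-- The formula of `Fo s i`. -/
def IsFo (s : ℕ) (i : Fin m)
    (Fo : MvPolynomial (Fin m × Fin b) ℂ →ₗ[ℂ] MvPolynomial (Fin m × Fin b) ℂ) : Prop :=
  ∀ (v : Fin m × Fin b →₀ ℕ) (c : ℂ), Fo (monomial v c) =
    ∑ j, monomial (v + Finsupp.single (i, j) 1) (c * ((s - ∑ i', v (i', j) : ℕ) : ℂ))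

/-- The formula of `D0 s i`. -/
def IsD0 (s : ℕ) (i : Fin m)
    (D0 : MvPolynomial (Fin m × Fin b) ℂ →ₗ[ℂ] MvPolynomial (Fin m × Fin b) ℂ) : Prop :=
  ∀ (v : Fin m × Fin b →₀ ℕ) (c : ℂ), D0 (monomial v c) =
    ∑ j with ∑ i', v (i', j) ≤ s, monomial (v - Finsupp.single (i, j) 1) (c * (v (i, j) : ℂ))

theorem Bf_Fo {s : ℕ} {i : Fin m}
    {Fo D0 : MvPolynomial (Fin m × Fin b) ℂ →ₗ[ℂ] MvPolynomial (Fin m × Fin b) ℂ}
    (hF : IsFo s i Fo) (hD : IsD0 s i D0) (p q : MvPolynomial (Fin m × Fin b) ℂ) :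
    Bf s (Fo p) q = Bf s p (D0 q) := by
  classical
  induction p using MvPolynomial.induction_on' with
  | add p p' hp hp' => rw [map_add, Bf_add_left, Bf_add_left, hp, hp']
  | monomial u a =>
    induction q using MvPolynomial.induction_on' with
    | add q q' hq hq' => rw [map_add, Bf_add_right, Bf_add_right, hq, hq']
    | monomial v c =>
      rw [hF u a, hD v c, Bf_sum_left, Bf_sum_right, Finset.sum_filter]
      refine Finset.sum_congr rfl fun j _ => ?_
      rw [Bf_monomial, Bf_monomial]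
      by_cases h : u + Finsupp.single (i, j) 1 = v
      · have h1 : v - Finsupp.single (i, j) 1 = u := by
          rw [← h]; exact add_tsub_cancel_right _ _
        have h2 : v (i, j) = u (i, j) + 1 := by rw [← h]; simp
        have h3 : ∑ i', v (i', j) = ∑ i', u (i', j) + 1 := by
          rw [← h, deg_add_single, if_pos rfl]
        have h4 := cw_add_single s u i j
        rw [if_pos h, h1, if_pos rfl, h3, h2, h]
        rw [h] at h4
        by_cases h5 : ∑ i', u (i', j) < s
        · rw [if_pos h5] at h4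
          rw [if_pos (by omega)]
          have h6 : (cw s v : ℂ) * ((s - ∑ i', u (i', j) : ℕ) : ℂ) =
              (cw s u : ℂ) * ((u (i, j) : ℂ) + 1) := by exact_mod_cast h4
          simp only [map_mul, Complex.conj_natCast, Nat.cast_add, Nat.cast_one]
          calc _ = ((cw s v : ℂ) * ((s - ∑ i', u (i', j) : ℕ) : ℂ)) *
                ((starRingEnd ℂ) a * c) := by ring
            _ = _ := by rw [h6]; ring
        · rw [if_neg h5] at h4
          rw [if_neg (by omega)]
          have h6 : (cw s v : ℂ) * ((s - ∑ i', u (i', j) : ℕ) : ℂ) = 0 := by exact_mod_cast h4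
          simp only [map_mul, Complex.conj_natCast]
          calc _ = ((cw s v : ℂ) * ((s - ∑ i', u (i', j) : ℕ) : ℂ)) *
                ((starRingEnd ℂ) a * c) := by ring
            _ = _ := by rw [h6]; ring
      · rw [if_neg h]
        by_cases h1 : u = v - Finsupp.single (i, j) 1
        · have h2 : v (i, j) = 0 := by
            by_contra h3
            refine h ?_
            rw [h1]
            refine tsub_add_cancel_of_le ?_
            rw [Finsupp.single_le_iff]
            omega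
          rw [if_pos h1, h2]
          simp
        · rw [if_neg h1]
          simp

theorem Bf_Fo' {s : ℕ} {i : Fin m}
    {Fo D0 : MvPolynomial (Fin m × Fin b) ℂ →ₗ[ℂ] MvPolynomial (Fin m × Fin b) ℂ}
    (hF : IsFo s i Fo) (hD : IsD0 s i D0) (p q : MvPolynomial (Fin m × Fin b) ℂ) :
    Bf s p (Fo q) = Bf s (D0 p) q := by
  rw [← Bf_symm, Bf_Fo hF hD, Bf_symm]

/-- **(U3)(a)**: `range ∩ ⋂ ker = 0`. -/
theorem range_inf_ker {s : ℕ}
    {Fo D0 : Fin m → MvPolynomial (Fin m × Fin b) ℂ →ₗ[ℂ] MvPolynomial (Fin m × Fin b) ℂ}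
    (hF : ∀ i, IsFo s i (Fo i)) (hD : ∀ i, IsD0 s i (D0 i))
    (g : Fin m → MvPolynomial (Fin m × Fin b) ℂ)
    (h : ∀ i, D0 i (∑ i, Fo i (g i)) = 0) : ∑ i, Fo i (g i) = 0 := by
  refine eq_zero_of_Bf s _ ?_
  conv_lhs => rw [Bf_sum_left]
  refine Finset.sum_eq_zero fun i _ => ?_
  rw [Bf_Fo (hF i) (hD i), h i, Bf_zero_right]

end Vale.Agent.P181.DU.H336
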