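import Vale.Agent.P181.DU.H235.Ops
import Vale.Agent.P181.DU.H336.Form

set_option autoImplicit false

/-!
# P181, line DU, (U3)(a): in the letters of `H235`, and the dimension count
-/

open MvPolynomial Finset Module

namespace Vale.Agent.P181.DU.H336

open Vale.Agent.P181.DU.H235 (R Cr An Fo D0 Fo_mono D0_mono)

variable {m b : ℕ}

theorem isFo (s : ℕ) (i : Fin m) : IsFo (b := b) s i (Fo s i) := fun v c => Fo_mono s i v c

theorem isD0 (s : ℕ) (i : Fin m) : IsD0 (b := b) s i (D0 s i) := fun v c => by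
  rw [D0_mono, Finset.sum_filter]

/-- Adjointness. -/
theorem adj (s : ℕ) (i : Fin m) (p q : R m b) : Bf s (Fo s i p) q = Bf s p (D0 s i q) :=
  Bf_Fo (isFo s i) (isD0 s i) p q

/-- Adjointness. -/
theorem adj' (s : ℕ) (i : Fin m) (p q : R m b) : Bf s p (Fo s i q) = Bf s (D0 s i p) q :=
  Bf_Fo' (isFo s i) (isD0 s i) p q

/-- **(U3)(a)**: `range ∩ ⋂ ker = 0`. -/
theorem range_inf (s : ℕ) (g : Fin m → R m b) (h : ∀ i, D0 s i (∑ i, Fo s i (g i)) = 0) :
    ∑ i, Fo s i (g i) = 0 :=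
  range_inf_ker (fun i => isFo s i) (fun i => isD0 s i) g h

/-- **(U3)(a)**, dimensions: `dim (M ∩ ⋂ ker D0) ≤ dim (M ∩ ker L)`, `L = ∑ Fo_i d_i`. -/
theorem dim_a (s : ℕ) (M : Submodule ℂ (R m b)) [FiniteDimensional ℂ M]
    (d : Fin m → R m b →ₗ[ℂ] R m b) (hL : ∀ p ∈ M, ∑ i, Fo s i (d i p) ∈ M) :
    finrank ℂ ↥(M ⊓ ⨅ i, LinearMap.ker (D0 (b := b) s i)) ≤
      finrank ℂ ↥(M ⊓ LinearMap.ker (∑ i, (Fo s i) ∘ₗ (d i))) := by
  have hL' : ∀ p ∈ M, (∑ i, (Fo s i) ∘ₗ (d i)) p ∈ M := fun p hp => by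
    simpa [LinearMap.sum_apply] using hL p hp
  set L : M →ₗ[ℂ] M := (∑ i, (Fo s i) ∘ₗ (d i)).restrict hL' with hLdef
  set N : Submodule ℂ M := (⨅ i, LinearMap.ker (D0 (b := b) s i)).comap M.subtype with hN
  have hdis : Disjoint (LinearMap.range L) N := by
    rw [Submodule.disjoint_def]
    rintro x ⟨y, rfl⟩ hx
    rw [hN, Submodule.mem_comap, Submodule.mem_iInf] at hx
    have hval : ((L y : M) : R m b) = ∑ i, Fo s i (d i y) := by
      rw [hLdef, LinearMap.coe_restrict_apply, LinearMap.sum_apply]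
      rfl
    have h0 : ∑ i, Fo s i (d i (y : R m b)) = 0 := by
      refine range_inf s (fun i => d i (y : R m b)) fun i => ?_
      have := hx i
      rw [LinearMap.mem_ker, Submodule.subtype_apply, hval] at this
      exact this
    exact Subtype.ext (by rw [hval, h0]; rfl)
  have h1 : finrank ℂ ↥(LinearMap.range L) + finrank ℂ ↥N ≤ finrank ℂ M := by
    rw [← Submodule.finrank_sup_add_finrank_inf_eq, hdis.eq_bot, finrank_bot, add_zero]
    exact Submodule.finrank_le _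
  have h2 := LinearMap.finrank_range_add_finrank_ker L
  have h3 : finrank ℂ ↥N = finrank ℂ ↥(M ⊓ ⨅ i, LinearMap.ker (D0 (b := b) s i)) := by
    rw [← Submodule.map_comap_subtype]
    exact (Submodule.finrank_map_subtype_eq M N).symm
  have h4 : finrank ℂ ↥(LinearMap.ker L) =
      finrank ℂ ↥(M ⊓ LinearMap.ker (∑ i, (Fo s i) ∘ₗ (d i))) := by
    have : LinearMap.ker L =
        (LinearMap.ker (∑ i, (Fo s i) ∘ₗ (d i))).comap M.subtype := by
      ext y
      rw [LinearMap.mem_ker, Submodule.mem_comap, LinearMap.mem_ker, ← Subtype.coe_inj]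
      rfl
    rw [this, ← Submodule.map_comap_subtype]
    exact (Submodule.finrank_map_subtype_eq M _).symm
  omega

end Vale.Agent.P181.DU.H336
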